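import Vale.Agent.P281.H638.TM.Pol
import Vale.Agent.P281.H89.TM.Th
import Vale.Agent.P281.H624.TM.ZerF

/-! P281, project T-M (helper638): T8-P, plugged. -/

namespace Vale.Agent.P281.H638.TM

open Vale.Agent.P281.H740.TM

/-- **T8-P** -/
theorem pol : CoefStmt → OrdStmt → ExcStmt → PolStmt' :=
  pol_of H624.TM.zerStmt H89.TM.thStmt

end Vale.Agent.P281.H638.TM
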