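import Vale.Agent.P281.H638.TM.PolD

/-! P281, project T-M (helper638): the poles of `Ξ(g x)^w Θ(x)^N` (T8-P of helper308). -/

open scoped Manifold ContDiff Topology
open Set Filter Metric Vale.Agent.P281 Vale.Agent.P272.K
open Vale.Agent.P281.MF Vale.Agent.P281.ISO Vale.Agent.P281.ELL Vale.Agent.P281.H713
open Vale.Agent.P281.H713.TZ Vale.Agent.P281.H308.TM Vale.Agent.P281.H740.TM
open Vale.Agent.P281.H64.Gen (IsSmallSet IsAnalyticSet)
open Vale.Agent.P281.H64.Thin (IsThinSet)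

set_option linter.all false

noncomputable section

namespace Vale.Agent.P281.H638.TM

/-- the numbers: `k w κ ≤ N o + ⌊N w δ⌋` -/
theorem num {k w κ N o : ℕ} {δ γ : ℝ} (hk : 0 < k) (hw : 0 < w) (h1 : (κ : ℝ) ≤ N * γ)
    (h2 : γ ≤ (δ + o / w) / k) : k * (w * κ) ≤ N * o + ⌊(N * w : ℝ) * δ⌋₊ := by
  have hk' : (0 : ℝ) < k := by exact_mod_cast hk
  have hw' : (0 : ℝ) < w := by exact_mod_cast hw
  have h3 : (k : ℝ) * (w * κ) ≤ N * o + N * w * δ := by
    have hN : (0 : ℝ) ≤ N := Nat.cast_nonneg N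
    have h4 : (κ : ℝ) ≤ N * ((δ + o / w) / k) := h1.trans (mul_le_mul_of_nonneg_left h2 hN)
    calc (k : ℝ) * (w * κ) = (k * w) * κ := by ring
      _ ≤ (k * w) * (N * ((δ + o / w) / k)) := mul_le_mul_of_nonneg_left h4 (by positivity)
      _ = N * o + N * w * δ := by field_simp; ring
  rcases le_or_gt (k * (w * κ)) (N * o) with h | h
  · exact h.trans (Nat.le_add_right _ _)
  · obtain ⟨m, hm⟩ : ∃ m, k * (w * κ) = N * o + m := ⟨k * (w * κ) - N * o, by omega⟩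
    have h5 : m ≤ ⌊(N * w : ℝ) * δ⌋₊ := by
      refine Nat.le_floor ?_
      have h6 : ((k * (w * κ) : ℕ) : ℝ) = ((N * o + m : ℕ) : ℝ) := by rw [hm]
      push_cast at h6
      linarith
    omega

section
variable {n : ℕ} {X : Type} [TopologicalSpace X] [ChartedSpace (Cm n) X]
  [IsManifold 𝓘(ℂ, Cm n) ω X]

/-- two local equations of `P` at a smooth point -/
theorem prod_order {P : Set X} {y : X} {e' : X → ℂ} (he' : J.IsLocalEq (Cm n) P e' y)
    (hyP : y ∈ P) (hde : J.dif (Cm n) e' y ≠ 0) {U : Finset (Set X)} {e : Set X → X → ℂ}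
    (he : ∀ D ∈ U, J.IsLocalEq (Cm n) D (e D) y) {K : Set X → ℕ} (hU : K P ≠ 0 → P ∈ U) :
    ∃ V : X → ℂ, ContinuousAt V y ∧ ∀ᶠ z in 𝓝 y, ∏ D ∈ U, e D z ^ K D = e' z ^ K P * V z := by
  classical
  have hcont : ∀ D ∈ U, ContinuousAt (e D) y := fun D hD =>
    (show HolV (Cm n) (e D) y from H511.Gen.isLocalEq_holAt (he D hD)).continuousAt
  by_cases hP : P ∈ U
  · obtain ⟨u, hu, hu0, hue⟩ := H511.Gen.exists_unit (H511.Gen.isLocalEq_holAt he')
      ((H511.Gen.isLocalEq_mem_iff he').self_of_nhds.1 hyP) hde (H511.Gen.isLocalEq_mem_iff he')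
      (he P hP)
    refine ⟨fun z => u z ^ K P * ∏ D ∈ U.erase P, e D z ^ K D, ?_, ?_⟩
    · refine ((show HolV (Cm n) u y from hu).continuousAt.pow _).mul ?_
      exact tendsto_finset_prod _ fun D hD => (hcont D (Finset.mem_of_mem_erase hD)).pow _
    · filter_upwards [hue] with z hz
      rw [← Finset.mul_prod_erase U _ hP, hz, mul_pow]
      ring
  · have h0 : K P = 0 := by
      by_contra h
      exact hP (hU h)
    refine ⟨fun z => ∏ D ∈ U, e D z ^ K D, ?_, ?_⟩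
    · exact tendsto_finset_prod _ fun D hD => (hcont D hD).pow _
    · refine Eventually.of_forall fun z => ?_
      rw [h0, pow_zero, one_mul]

end

section
variable {n p : ℕ} {X Z : Type} [TopologicalSpace X] [ChartedSpace (Cm n) X]
  [IsManifold 𝓘(ℂ, Cm n) ω X] [TopologicalSpace Z] [ChartedSpace (Cm p) Z]
  [IsManifold 𝓘(ℂ, Cm p) ω Z] {g : X → Z}

/-- the order of the denominator at a good point -/
theorem den_order (hgc : Continuous g) {D₀ : Set Z} {y : X} {e' u : X → ℂ} {d' : Z → ℂ} {k : ℕ}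
    (hd' : J.IsLocalEq (Cm p) D₀ d' (g y)) (hyD : g y ∈ D₀) (hdd : J.dif (Cm p) d' (g y) ≠ 0)
    (hu : ContinuousAt u y) (hu0 : u y ≠ 0) (hev : ∀ᶠ z in 𝓝 y, d' (g z) = e' z ^ k * u z)
    {T : Finset (Set Z)} {d : Set Z → Z → ℂ} (hd : ∀ D ∈ T, J.IsLocalEq (Cm p) D (d D) (g y))
    {m : Set Z → ℕ} (hT : D₀ ∈ T) (hoff : ∀ D ∈ T, D ≠ D₀ → m D ≠ 0 → g y ∉ D) :
    ∃ V : X → ℂ, ContinuousAt V y ∧ V y ≠ 0 ∧
      ∀ᶠ z in 𝓝 y, ∏ D ∈ T, d D (g z) ^ m D = e' z ^ (k * m D₀) * V z := by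
  classical
  have hcont : ∀ D ∈ T, ContinuousAt (fun z => d D (g z)) y := fun D hD =>
    ContinuousAt.comp (f := g) (g := d D)
      (show HolV (Cm p) (d D) (g y) from H511.Gen.isLocalEq_holAt (hd D hD)).continuousAt
      hgc.continuousAt
  obtain ⟨c, hc, hc0, hce⟩ := H511.Gen.exists_unit (H511.Gen.isLocalEq_holAt hd')
    ((H511.Gen.isLocalEq_mem_iff hd').self_of_nhds.1 hyD) hdd (H511.Gen.isLocalEq_mem_iff hd')
    (hd D₀ hT)
  have hcc : ContinuousAt (fun z => c (g z)) y := ContinuousAt.comp (f := g) (g := c)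
    (show HolV (Cm p) c (g y) from hc).continuousAt hgc.continuousAt
  refine ⟨fun z => (u z * c (g z)) ^ m D₀ * ∏ D ∈ T.erase D₀, d D (g z) ^ m D, ?_, ?_, ?_⟩
  · refine ((hu.mul hcc).pow _).mul ?_
    exact tendsto_finset_prod _ fun D hD => (hcont D (Finset.mem_of_mem_erase hD)).pow _
  · refine mul_ne_zero (pow_ne_zero _ (mul_ne_zero hu0 hc0)) ?_
    refine Finset.prod_ne_zero_iff.2 fun D hD => ?_
    by_cases hm : m D = 0
    · rw [hm, pow_zero]; exact one_ne_zero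
    · refine pow_ne_zero _ fun h0 => ?_
      have hDT := Finset.mem_of_mem_erase hD
      exact hoff D hDT (Finset.ne_of_mem_erase hD) hm
        ((H511.Gen.isLocalEq_mem_iff (hd D hDT)).self_of_nhds.2 h0)
  · filter_upwards [hev, hgc.continuousAt.eventually hce] with z h1 h2
    rw [← Finset.mul_prod_erase T _ hT, h2, h1, mul_pow, mul_pow, mul_pow, pow_mul]
    ring

end

/-- bounded quotients -/
theorem bdd_quot {X : Type} [TopologicalSpace X] {y : X} {e' A B V W : X → ℂ} {a b : ℕ}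
    (he : ContinuousAt e' y) (hV : ContinuousAt V y) (hW : ContinuousAt W y) (hW0 : W y ≠ 0)
    (hA : ∀ᶠ z in 𝓝 y, A z = e' z ^ a * V z) (hB : ∀ᶠ z in 𝓝 y, B z = e' z ^ b * W z)
    (hab : b ≤ a) : ∃ C : ℝ, ∀ᶠ z in 𝓝 y, B z ≠ 0 → ‖A z / B z‖ ≤ C := by
  set F : X → ℂ := fun z => e' z ^ (a - b) * V z / W z with hF
  have hFc : ContinuousAt F y := ((he.pow _).mul hV).div hW hW0
  refine ⟨‖F y‖ + 1, ?_⟩
  filter_upwards [hA, hB, hFc.norm.eventually_lt_const (lt_add_one ‖F y‖), hW.eventually_ne hW0]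
    with z h1 h2 h3 h4 h5
  have h6 : A z / B z = F z := by
    rw [h2] at h5
    have h7 : e' z ^ b ≠ 0 := left_ne_zero_of_mul h5
    obtain ⟨c, rfl⟩ : ∃ c, a = b + c := ⟨a - b, by omega⟩
    rw [h1, h2]
    simp only [hF]
    rw [Nat.add_sub_cancel_left, pow_add]
    field_simp
  rw [h6]
  exact h3.le

theorem pol_of (hZer : ZerStmt) (hThS : ThStmt) (hCo : CoefStmt) (hOr : OrdStmt)
    (hEx : ExcStmt) : PolStmt' := by
  classical
  intro q X Z Y _ _ _ _ _ _ _ _ _ g h Δ S e₀ w Θ hstd hfh Γ hΓfin hΓpr hΓle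
  have hfib := hstd.fib
  have : T2Space X := hfib.hausdorff.1
  have : T2Space Z := hfib.hausdorff.2
  have : CompactSpace X := hfib.compact
  have : ConnectedSpace X := hfib.connected
  have : ConnectedSpace Z := hfh.connected
  have : T2Space Y := hfh.hausdorff.2
  have hg := hfib.hol
  have hh := hfh.hol
  have hgc : Continuous g := hg.continuous
  have hhc : Continuous h := hh.continuous
  have hsurj : Function.Surjective g := fun z => (hfib.fibres z).nonempty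
  have hw := hstd.pos
  have hcoef : ∀ x, ∃ H, IsCoef (q + 1) g S w Θ x H :=
    hCo (q + 1) X Z g Δ S e₀ w Θ hfib hstd.small hstd.proper hw hstd.form
  obtain ⟨Th, hTh1, hTh2, hTh3⟩ := hThS (q + 1) X Z g Δ S e₀ w Θ hstd hcoef
  -- the set `S₁`
  obtain ⟨hfinP, -⟩ := cover hZer hg hsurj hΓfin (fun D hD => hΓpr D hD)
  obtain ⟨zo, hzo⟩ := exists_off hΓfin (fun D hD => hΓpr D hD)
  have hclΓ : IsClosed (⋃₀ {D | Γ D ≠ 0}) := H511.Gen.isAnalyticSet_isClosed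
    (H511.Gen.isAnalyticSet_sUnion hΓfin fun D hD => H511.Gen.isAnalyticSet_prime (hΓpr D hD))
  set 𝒬 : Set (Set X) := {P | (J.IsPrime (Cm (q + 1 + 1)) P ∧ P ⊆ g ⁻¹' ⋃₀ {D | Γ D ≠ 0}) ∧
    ¬ J.IsPrime (Cm (q + 1)) (closure (g '' P))} with h𝒬
  have h𝒬f : 𝒬.Finite := hfinP.subset fun P hP => hP.1
  refine ⟨⋃ P ∈ 𝒬, (fun x => h (g x)) '' P, H64.Gen.IsSmallSet.biUnion h𝒬f fun P hP => ?_, ?_⟩
  · refine hEx q X Z Y g h hg hh P hP.1.1 (fun hu => hzo ?_) hP.2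
    have h1 : closure (g '' P) ⊆ ⋃₀ {D | Γ D ≠ 0} :=
      closure_minimal (image_subset_iff.2 hP.1.2) hclΓ
    exact h1 (by rw [hu]; exact mem_univ zo)
  intro S₀ hS₀ hS₁ e₂ N ℬ κ Ξ hκ hΞ
  intro x₀ x y₀ hxS hx₀ hy₀ U e hU he
  have hS₀c : IsClosed S₀ := hS₀.1
  set K : Set X → ℕ := fun E => ⌊(N * w : ℝ) * Δ E⌋₊ with hK
  have hκΓ : ∀ D, κ D ≠ 0 → Γ D ≠ 0 := by
    intro D hD h0
    have h1 := hκ D
    rw [h0, mul_zero] at h1
    have h2 : (0 : ℝ) < κ D := by exact_mod_cast Nat.pos_of_ne_zero hD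
    linarith
  set T : Finset (Set Z) := hΓfin.toFinset with hT
  have hTm : ∀ D, D ∈ T ↔ Γ D ≠ 0 := fun D => by rw [hT, Set.Finite.mem_toFinset]; rfl
  have hκT : ∀ D, κ D ≠ 0 → D ∈ T := fun D hD => (hTm D).2 (hκΓ D hD)
  have hdX : ∀ D, ∃ d : Z → ℂ, D ∈ T → J.IsLocalEq (Cm (q + 1)) D d (g x) := by
    intro D
    by_cases hD : D ∈ T
    · obtain ⟨d, hd⟩ := (hΓpr D ((hTm D).1 hD)).2.1 (g x)
      exact ⟨d, fun _ => hd⟩
    · exact ⟨fun _ => 0, fun h => absurd h hD⟩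
  choose d hd using hdX
  obtain ⟨H₁, hH₁, hH₁e⟩ := hΞ.hol (g x) (g x) y₀ hxS (mem_chart_source _ _) hy₀ T d hκT hd
  obtain ⟨Hx, hHx⟩ := hcoef x
  have hThx := hTh2 x Hx hHx
  obtain ⟨c, hc, hc0, hce⟩ := H364.TM.jac_ratio (n := q + 1 + 1) (x₀ := x) (x₁ := x₀) (x := x)
    (mem_chart_source _ _) hx₀
  set Pe : X → ℂ := fun z => ∏ D ∈ U, e D z ^ K D with hPe
  set Den : X → ℂ := fun z => ∏ D ∈ T, d D (g z) ^ (w * κ D) with hDen
  set Num : X → ℂ := fun z => H₁ (g z) ^ w * Hx z ^ N * c z ^ (w * N) * Pe z with hNum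
  -- everything needed at the points near `x`
  set W : X → Prop := fun z => (∀ D ∈ T, J.IsLocalEq (Cm (q + 1)) D (d D) (g z)) ∧
    (∀ D ∈ U, J.IsLocalEq (Cm (q + 1 + 1)) D (e D) z) ∧
    z ∈ (chartAt (Cm (q + 1 + 1)) x).source ∧ g z ∈ (chartAt (Cm (q + 1)) (g x)).source ∧
    HolV (Cm (q + 1)) H₁ (g z) ∧ HolV (Cm (q + 1 + 1)) Hx z ∧ HolV (Cm (q + 1 + 1)) c z ∧
    jac (Cm (q + 1)) (chartAt (Cm (q + 1)) (g x)) (g z) ^ w * Th z =
      Hx z * jac (Cm (q + 1 + 1)) (chartAt (Cm (q + 1 + 1)) x) z ^ w ∧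
    h (g z) ∉ S₀ with hW
  have hWev : ∀ᶠ z in 𝓝 x, W z := by
    have e1 : ∀ᶠ z in 𝓝 x, ∀ D ∈ T, J.IsLocalEq (Cm (q + 1)) D (d D) (g z) := by
      rw [Filter.eventually_all_finset]
      intro D hD
      exact hgc.continuousAt.eventually (H511.Gen.isLocalEq_eventually (hd D hD))
    have e2 : ∀ᶠ z in 𝓝 x, ∀ D ∈ U, J.IsLocalEq (Cm (q + 1 + 1)) D (e D) z := by
      rw [Filter.eventually_all_finset]
      intro D hD
      exact H511.Gen.isLocalEq_eventually (he D hD)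
    filter_upwards [e1, e2, (chartAt (Cm (q + 1 + 1)) x).open_source.mem_nhds
      (mem_chart_source (Cm (q + 1 + 1)) x), hgc.continuousAt.eventually
      ((chartAt (Cm (q + 1)) (g x)).open_source.mem_nhds (mem_chart_source (Cm (q + 1)) (g x))),
      hgc.continuousAt.eventually hH₁.eventually, (show HolV (Cm (q + 1 + 1)) Hx x from
        hHx.1).eventually, hc.eventually, hThx, (hhc.comp hgc).continuousAt.eventually
        (hS₀c.isOpen_compl.mem_nhds hxS)] with z a1 a2 a3 a4 a5 a6 a7 a8 a9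
    exact ⟨a1, a2, a3, a4, a5, a6, a7, a8, a9⟩
  have hDenH : ∀ z, W z → HolV (Cm (q + 1 + 1)) Den z := fun z hz =>
    HolV.prod fun D hD => (HolV.comp (E' := Cm (q + 1)) (h := d D) (f := g)
      (H511.Gen.isLocalEq_holAt (hz.1 D hD)) (hg z)).pow _
  have hPeH : ∀ z, W z → HolV (Cm (q + 1 + 1)) Pe z := fun z hz =>
    HolV.prod fun D hD => (show HolV (Cm (q + 1 + 1)) (e D) z from
      H511.Gen.isLocalEq_holAt (hz.2.1 D hD)).pow _
  have hNumH : ∀ z, W z → HolV (Cm (q + 1 + 1)) Num z := fun z hz =>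
    ((((HolV.comp (E' := Cm (q + 1)) (h := H₁) (f := g) hz.2.2.2.2.1 (hg z)).pow w).mul
      (hz.2.2.2.2.2.1.pow N)).mul (hz.2.2.2.2.2.2.1.pow _)).mul (hPeH z hz)
  -- the zeros of `Den`
  set 𝒟 : Set (Set Z) := {D | κ D ≠ 0} with h𝒟
  have h𝒟f : 𝒟.Finite := hΓfin.subset fun D hD => hκΓ D hD
  have h𝒟p : ∀ D ∈ 𝒟, J.IsPrime (Cm (q + 1)) D := fun D hD => hΓpr D (hκΓ D hD)
  have hDen0 : ∀ z, W z → (Den z = 0 ↔ z ∈ g ⁻¹' ⋃₀ 𝒟) := by
    intro z hz
    simp only [hDen]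
    rw [Finset.prod_eq_zero_iff]
    constructor
    · rintro ⟨D, hD, h0⟩
      have h1 : w * κ D ≠ 0 := fun h1 => by
        rw [h1, pow_zero] at h0
        exact one_ne_zero h0
      have h2 : d D (g z) = 0 := pow_eq_zero_iff h1 |>.1 h0
      exact ⟨D, right_ne_zero_of_mul h1,
        (H511.Gen.isLocalEq_mem_iff (hz.1 D hD)).self_of_nhds.2 h2⟩
    · rintro ⟨D, hD, hzD⟩
      have hDT := hκT D hD
      refine ⟨D, hDT, ?_⟩
      rw [(H511.Gen.isLocalEq_mem_iff (hz.1 D hDT)).self_of_nhds.1 hzD]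
      exact zero_pow (Nat.mul_ne_zero hw.ne' hD)
  obtain ⟨Q, hQ, hQe⟩ := extendM_off (E := Cm (q + 1 + 1)) (h := fun z => Num z / Den z)
    (Den := Den) (x := x) (hDenH x hWev.self_of_nhds) (by
      intro hcon
      refine not_ev hg hsurj h𝒟f h𝒟p x ?_
      filter_upwards [hcon, hWev] with z h1 h2
      exact (hDen0 z h2).1 h1) (by
      filter_upwards [hWev] with z hz hz0
      exact HolV.div (hNumH z hz) (hDenH z hz) hz0) (by
      filter_upwards [hWev.eventually_nhds] with z hz hz0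
      rw [hDen0 z hz.self_of_nhds] at hz0
      obtain ⟨P, hP, hPD, hzP⟩ := (cover hZer hg hsurj h𝒟f h𝒟p).2 z hz0
      have hcl𝒟 : IsClosed (⋃₀ 𝒟) := H511.Gen.isAnalyticSet_isClosed
        (H511.Gen.isAnalyticSet_sUnion h𝒟f fun D hD => H511.Gen.isAnalyticSet_prime (h𝒟p D hD))
      have hgP : closure (g '' P) ⊆ ⋃₀ 𝒟 := closure_minimal (image_subset_iff.2 hPD) hcl𝒟
      have hD₀ : J.IsPrime (Cm (q + 1)) (closure (g '' P)) := by
        by_contra hn
        refine hz.self_of_nhds.2.2.2.2.2.2.2.2 (hS₁ (mem_iUnion₂.2 ⟨P, ⟨⟨hP, ?_⟩, hn⟩, z, hzP,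
          rfl⟩))
        exact hPD.trans (preimage_mono (sUnion_subset_sUnion fun D hD => hκΓ D hD))
      obtain ⟨D₀, hD₀e⟩ : ∃ D₀, D₀ = closure (g '' P) := ⟨_, rfl⟩
      rw [← hD₀e] at hD₀ hgP
      obtain ⟨D₁, hD₁, hD₀₁⟩ := H511.Gen.exists_subset_of_subset_sUnion hD₀ h𝒟f
        (fun D hD => H511.Gen.isAnalyticSet_prime (h𝒟p D hD)) hgP
      obtain rfl := H511.Gen.prime_eq_of_subset hD₀ (h𝒟p D₁ hD₁) hD₀₁
      obtain ⟨k, o, hk, -, hAn, hcG, -⟩ := hOr (q + 1) X Z g Δ S e₀ w Θ hstd P D₀ hP hD₀ hD₀e.symm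
      -- the good points
      have hne : ∃ y, GoodAt (q + 1) g S w Θ P D₀ k o y := by
        by_contra hcon
        push Not at hcon
        have h1 : {x | GoodAt (q + 1) g S w Θ P D₀ k o x} = ∅ := eq_empty_of_forall_notMem hcon
        rw [h1, closure_empty] at hcG
        exact hcG hzP
      have hle : Γ D₀ ≤ (Δ P + o / w) / k := by
        obtain ⟨y, hy⟩ := hne
        exact hΓle D₀ hD₀ _ ⟨P, k, o, y, hP, hD₀e.symm, hy, rfl⟩
      have hnum := num (κ := κ D₀) (N := N) hk hw (hκ D₀) hle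
      have hA' : IsAnalyticSet (Cm (q + 1 + 1)) (g ⁻¹' ⋃₀ (𝒟 \ {D₀})) :=
        analytic_pre hg (h𝒟f.subset diff_subset) fun D hD => h𝒟p D hD.1
      have hsub : P ⊆ closure (H511.Gen.sm (q + 1 + 1) P \
          ({x | x ∈ P ∧ ¬ GoodAt (q + 1) g S w Θ P D₀ k o x} ∪ g ⁻¹' ⋃₀ (𝒟 \ {D₀}))) := by
        refine H511.Gen.subset_closure_diff hP (H511.Gen.isAnalyticSet_union hAn hA') fun hcon => ?_
        rcases H511.Gen.subset_or_subset hP hAn (H511.Gen.isAnalyticSet_isClosed hA') hcon with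
          h1 | h1
        · obtain ⟨y, hy⟩ := hne
          exact (h1 hy.1).2 hy
        · have h2 : D₀ ⊆ ⋃₀ (𝒟 \ {D₀}) := by
            rw [hD₀e]
            refine closure_minimal (image_subset_iff.2 ?_) ?_
            · rw [← hD₀e]; exact h1
            · rw [← hD₀e]
              exact H511.Gen.isAnalyticSet_isClosed (H511.Gen.isAnalyticSet_sUnion
                (h𝒟f.subset diff_subset) fun D hD => H511.Gen.isAnalyticSet_prime (h𝒟p D hD.1))
          obtain ⟨D₂, hD₂, hD₀₂⟩ := H511.Gen.exists_subset_of_subset_sUnion hD₀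
            (h𝒟f.subset diff_subset) (fun D hD => H511.Gen.isAnalyticSet_prime (h𝒟p D hD.1)) h2
          exact hD₂.2 (H511.Gen.prime_eq_of_subset hD₀ (h𝒟p D₂ hD₂.1) hD₀₂).symm
      rw [mem_closure_iff_nhds]
      intro t ht
      obtain ⟨y, ⟨hyt, hyW⟩, hysm, hyA⟩ := mem_closure_iff_nhds.1 (hsub hzP) _
        (inter_mem ht (eventually_eventually_nhds.2 hz))
      have hyW : ∀ᶠ z' in 𝓝 y, W z' := hyW
      have hyP : y ∈ P := hysm.1
      have hygood : GoodAt (q + 1) g S w Θ P D₀ k o y := by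
        by_contra hcon
        exact hyA (Or.inl ⟨hyP, hcon⟩)
      have hyoff : ∀ D ∈ 𝒟, D ≠ D₀ → g y ∉ D := fun D hD hne' hyD =>
        hyA (Or.inr ⟨D, ⟨hD, hne'⟩, hyD⟩)
      have hyW0 := hyW.self_of_nhds
      have hgyD : g y ∈ D₀ := by rw [hD₀e]; exact subset_closure (mem_image_of_mem g hyP)
      refine ⟨y, hyt, (hDen0 y hyW0).2 ⟨D₀, hD₁, hgyD⟩, ?_⟩
      obtain ⟨-, e', d', u, H, v, he', hde', hd', hdd', hu, hu0, hue, hH, hv, hv0, hve, -⟩ :=
        hygood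
      -- `Hx` near `y`
      obtain ⟨a, ha, ha0, hae⟩ := H364.TM.jac_ratio (n := q + 1 + 1) (x₀ := x) (x₁ := y) (x := y)
        hyW0.2.2.1 (mem_chart_source _ _)
      obtain ⟨b, hb, hb0, hbe⟩ := H364.TM.jac_ratio (n := q + 1) (x₀ := g x) (x₁ := g y)
        (x := g y) hyW0.2.2.2.1 (mem_chart_source _ _)
      have hThy := hTh2 y H hH
      have hbc : ContinuousAt (fun z => b (g z)) y := ContinuousAt.comp (f := g) (g := b)
        hb.continuousAt hgc.continuousAt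
      have hHxo : ∀ᶠ z in 𝓝 y, Hx z = e' z ^ o * (b (g z) ^ w * v z / a z ^ w) := by
        filter_upwards [hyW, hThy, hae, hgc.continuousAt.eventually hbe, hve,
          ha.continuousAt.eventually_ne ha0, (chartAt (Cm (q + 1 + 1)) y).open_source.mem_nhds
          (mem_chart_source (Cm (q + 1 + 1)) y)] with z b1 b2 b3 b4 b5 b6 b7
        have c1 := b1.2.2.2.2.2.2.2.1
        rw [b3, b4, mul_pow, mul_pow, mul_assoc, b2, b5] at c1
        have c2 : jac (Cm (q + 1 + 1)) (chartAt (Cm (q + 1 + 1)) y) z ^ w ≠ 0 :=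
          pow_ne_zero _ (jac_chart_ne_zero b7)
        have c3 : a z ^ w ≠ 0 := pow_ne_zero _ b6
        rw [mul_div_assoc', eq_div_iff c3]
        refine mul_right_cancel₀ c2 ?_
        linear_combination -c1
      obtain ⟨V₁, hV₁, hV₁e⟩ := prod_order he' hyP hde' hyW0.2.1 (K := K) (hU P)
      obtain ⟨V₂, hV₂, hV₂0, hV₂e⟩ := den_order hgc hd' hgyD hdd'
        (show HolV (Cm (q + 1 + 1)) u y from hu).continuousAt hu0 hue hyW0.1
        (m := fun D => w * κ D) (hκT D₀ hD₁)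
        (fun D hD hne' hm => hyoff D (right_ne_zero_of_mul hm) hne')
      have hec : ContinuousAt e' y :=
        (show HolV (Cm (q + 1 + 1)) e' y from H511.Gen.isLocalEq_holAt he').continuousAt
      have hH₁c : ContinuousAt (fun z => H₁ (g z)) y := ContinuousAt.comp (f := g) (g := H₁)
        hyW0.2.2.2.2.1.continuousAt hgc.continuousAt
      refine bdd_quot (a := N * o + K P) (b := k * (w * κ D₀)) (V := fun z => H₁ (g z) ^ w *
        (b (g z) ^ w * v z / a z ^ w) ^ N * c z ^ (w * N) * V₁ z) (W := V₂) hec ?_ hV₂ hV₂0 ?_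
        hV₂e hnum
      · refine (((hH₁c.pow w).mul ((((hbc.pow w).mul
          (show HolV (Cm (q + 1 + 1)) v y from hv).continuousAt).div (ha.continuousAt.pow w)
          (pow_ne_zero _ ha0)).pow N)).mul (hyW0.2.2.2.2.2.2.1.continuousAt.pow _)).mul hV₁
      · filter_upwards [hHxo, hV₁e] with z b1 b2
        simp only [hNum, hPe]
        rw [b1, b2, mul_pow, ← pow_mul, mul_comm o N, pow_add]
        ring)
  refine ⟨Q, hQ, ?_⟩
  filter_upwards [hQe, hWev, hce, hHx.2, hgc.continuousAt.eventually hH₁e,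
    (chartAt (Cm (q + 1 + 1)) x₀).open_source.mem_nhds hx₀] with z h1 h2 h3 h4 h5 h6 _ h7 h8 h9
  have hoff : ∀ D, Γ D ≠ 0 → g z ∉ D := fun D hD => h7 D (Or.inr hD)
  have hDz : Den z ≠ 0 := by
    intro h0
    obtain ⟨D, hD, hzD⟩ := (hDen0 z h2).1 h0
    exact hoff D (hκΓ D hD) hzD
  have hPd : ∏ D ∈ T, d D (g z) ^ κ D ≠ 0 := by
    refine Finset.prod_ne_zero_iff.2 fun D hD => pow_ne_zero _ fun h0 => ?_
    exact hoff D ((hTm D).1 hD) ((H511.Gen.isLocalEq_mem_iff (h2.1 D hD)).self_of_nhds.2 h0)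
  have hDP : Den z = (∏ D ∈ T, d D (g z) ^ κ D) ^ w := by
    simp only [hDen]
    rw [← Finset.prod_pow]
    refine Finset.prod_congr rfl fun D _ => ?_
    rw [← pow_mul, mul_comm]
  have k1 := h5 (fun D hD => h7 D (Or.inl hD)) hPd
  have k2 := h4 h8
  rw [← h1 hDz, hDP, div_mul_eq_mul_div, eq_div_iff (pow_ne_zero _ hPd)]
  simp only [hNum]
  rw [h3, mul_pow] at k2
  have k3 : (jac (Cm q) (chartAt (Cm q) y₀) (h (g z)) ^ N * Ξ (g z) *
      ∏ D ∈ T, d D (g z) ^ κ D) ^ w * Θ z ^ N =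
      (H₁ (g z) * jac (Cm (q + 1)) (chartAt (Cm (q + 1)) (g x)) (g z) ^ N) ^ w * Θ z ^ N := by
    rw [k1]
  have k4 : (jac (Cm (q + 1)) (chartAt (Cm (q + 1)) (g x)) (g z) ^ w * Θ z) ^ N =
      (Hx z * (c z ^ w * jac (Cm (q + 1 + 1)) (chartAt (Cm (q + 1 + 1)) x₀) z ^ w)) ^ N := by
    rw [k2]
  simp only [hPe]
  calc jac (Cm q) (chartAt (Cm q) y₀) (h (g z)) ^ (N * w) * (Ξ (g z) ^ w * Θ z ^ N) *
        (∏ D ∈ U, e D z ^ K D) * (∏ D ∈ T, d D (g z) ^ κ D) ^ w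
      = ((jac (Cm q) (chartAt (Cm q) y₀) (h (g z)) ^ N * Ξ (g z) *
          ∏ D ∈ T, d D (g z) ^ κ D) ^ w * Θ z ^ N) * ∏ D ∈ U, e D z ^ K D := by
        rw [mul_pow, mul_pow, ← pow_mul]; ring
    _ = H₁ (g z) ^ w * (jac (Cm (q + 1)) (chartAt (Cm (q + 1)) (g x)) (g z) ^ w * Θ z) ^ N *
          ∏ D ∈ U, e D z ^ K D := by
        rw [k3, mul_pow, mul_pow, ← pow_mul, ← pow_mul, mul_comm N w]; ring
    _ = _ := by
        rw [k4, mul_pow, mul_pow, ← pow_mul, ← pow_mul, mul_comm N w]; ring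

end Vale.Agent.P281.H638.TM
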