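import Vale.Agent.P281.H308.TM.FDefs
import Vale.Agent.P281.H740.TM.SpecR2
import Vale.Agent.P281.H364.TM.Ord
import Vale.Agent.P281.H511.Gen.Prime
import Vale.Agent.P281.H64.Gen.Core

/-! P281, project T-M (helper638): the poles of `Ξ(g x)^w Θ(x)^N` (T8-P of helper308):
letters and tools. -/

open scoped Manifold ContDiff Topology
open Set Filter Metric Vale.Agent.P281 Vale.Agent.P272.K
open Vale.Agent.P281.MF Vale.Agent.P281.ISO Vale.Agent.P281.ELL Vale.Agent.P281.H713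
open Vale.Agent.P281.H713.TZ Vale.Agent.P281.H308.TM
open Vale.Agent.P281.H64.Gen (IsSmallSet IsAnalyticSet)
open Vale.Agent.P281.H64.Thin (IsThinSet)

set_option linter.all false

noncomputable section

namespace Vale.Agent.P281.H638.TM

/-- `PolStmt` of `H308/TM/FDefs`, off the inverse images of the divisors of `Γ` too. -/
def PolStmt' : Prop :=
  ∀ (q : ℕ) (X Z Y : Type) [TopologicalSpace X] [ChartedSpace (Cm (q + 1 + 1)) X]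
    [IsManifold 𝓘(ℂ, Cm (q + 1 + 1)) ω X] [TopologicalSpace Z] [ChartedSpace (Cm (q + 1)) Z]
    [IsManifold 𝓘(ℂ, Cm (q + 1)) ω Z] [TopologicalSpace Y] [ChartedSpace (Cm q) Y]
    [IsManifold 𝓘(ℂ, Cm q) ω Y]
    (g : X → Z) (h : Z → Y) (Δ : Set X → ℝ) (S : Set Z)
    (e₀ : Cm (q + 1 + 1) ≃L[ℂ] (Cm (q + 1) × ℂ)) (w : ℕ) (Θ : X → ℂ),
    H740.TM.Std (q + 1) g Δ S e₀ w Θ →
    H511.Surf.IsFibration (Cm (q + 1)) (Cm q) h (fun _ => 0) → ∀ Γ : Set Z → ℝ,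
    {D | Γ D ≠ 0}.Finite → (∀ D, Γ D ≠ 0 → J.IsPrime (Cm (q + 1)) D) →
    (∀ D, J.IsPrime (Cm (q + 1)) D → ∀ r ∈ H740.TM.mset (q + 1) g S w Θ Δ D, Γ D ≤ r) →
    ∃ S₁ : Set Y, IsSmallSet (Cm q) S₁ ∧ ∀ S₀ : Set Y, IsSmallSet (Cm q) S₀ → S₁ ⊆ S₀ →
      ∀ (e₂ : Cm (q + 1) ≃L[ℂ] (Cm q × ℂ)) (N : ℕ) (ℬ : Set (Set Z)) (κ : Set Z → ℕ) (Ξ : Z → ℂ),
      (∀ D, (κ D : ℝ) ≤ N * Γ D) → RelForm h S₀ e₂ N ℬ κ Ξ →
      HolF2 (n := q + 1 + 1) (p := q) (q := q + 1) (fun x => h (g x)) g S₀ S (N * w) ∅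
        (ℬ ∪ {D | Γ D ≠ 0}) (fun E => ⌊(N * w : ℝ) * Δ E⌋₊) (fun x => Ξ (g x) ^ w * Θ x ^ N)

section
variable {n p : ℕ} {X Z : Type} [TopologicalSpace X] [ChartedSpace (Cm n) X]
  [IsManifold 𝓘(ℂ, Cm n) ω X] [TopologicalSpace Z] [ChartedSpace (Cm p) Z]
  [IsManifold 𝓘(ℂ, Cm p) ω Z] {g : X → Z}

/-- finitely many prime divisors are not everything -/
theorem exists_off [Nonempty Z] {𝒟 : Set (Set Z)} (hf : 𝒟.Finite)
    (hp : ∀ D ∈ 𝒟, J.IsPrime (Cm p) D) : ∃ z, z ∉ ⋃₀ 𝒟 := by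
  have h1 := dense_compl_finite hf (fun D hD => (hp D hD).1) (fun D hD => by
    intro z
    obtain ⟨d, hd⟩ := (hp D hD).2.1 z
    rw [mem_closure_iff_frequently]
    have h2 := H511.Gen.isLocalEq_not_zero hd
    rw [Filter.not_eventually] at h2
    refine (h2.and_eventually (H511.Gen.isLocalEq_mem_iff hd)).mono ?_
    rintro z' ⟨h3, h4⟩ h5
    exact h3 (h4.1 h5))
  obtain ⟨z, hz⟩ := h1.2.nonempty
  refine ⟨z, ?_⟩
  rintro ⟨D, hD, hzD⟩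
  exact hz D hD hzD

theorem analytic_pre (hg : ContMDiff 𝓘(ℂ, Cm n) 𝓘(ℂ, Cm p) ω g) {𝒟 : Set (Set Z)}
    (hf : 𝒟.Finite) (hp : ∀ D ∈ 𝒟, J.IsPrime (Cm p) D) :
    IsAnalyticSet (Cm n) (g ⁻¹' ⋃₀ 𝒟) :=
  H511.Gen.isAnalyticSet_preimage hg (H511.Gen.isAnalyticSet_sUnion hf fun D hD =>
    H511.Gen.isAnalyticSet_prime (hp D hD))

theorem not_ev [PreconnectedSpace X] [Nonempty Z]
    (hg : ContMDiff 𝓘(ℂ, Cm n) 𝓘(ℂ, Cm p) ω g) (hs : Function.Surjective g) {𝒟 : Set (Set Z)}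
    (hf : 𝒟.Finite) (hp : ∀ D ∈ 𝒟, J.IsPrime (Cm p) D) (x : X) :
    ¬ ∀ᶠ z in 𝓝 x, z ∈ g ⁻¹' ⋃₀ 𝒟 := by
  obtain ⟨z₀, hz₀⟩ := exists_off hf hp
  obtain ⟨x₀, rfl⟩ := hs z₀
  have h1 := H511.Gen.isThinSet_of_analytic (analytic_pre hg hf hp) (fun h => hz₀ (by
    have h2 : x₀ ∈ g ⁻¹' ⋃₀ 𝒟 := by rw [h]; exact mem_univ x₀
    exact h2))
  obtain ⟨k, hk, hk0, hG⟩ := h1.2 x
  intro hcon
  apply hk0
  filter_upwards [hcon, hG] with z h2 h3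
  exact h3 h2

/-- the inverse image of finitely many prime divisors is a finite union of prime divisors -/
theorem cover (hZer : H740.TM.ZerStmt) [T2Space X] [CompactSpace X] [PreconnectedSpace X]
    [Nonempty Z] (hg : ContMDiff 𝓘(ℂ, Cm n) 𝓘(ℂ, Cm p) ω g) (hs : Function.Surjective g)
    {𝒟 : Set (Set Z)} (hf : 𝒟.Finite) (hp : ∀ D ∈ 𝒟, J.IsPrime (Cm p) D) :
    {E : Set X | J.IsPrime (Cm n) E ∧ E ⊆ g ⁻¹' ⋃₀ 𝒟}.Finite ∧ ∀ x ∈ g ⁻¹' ⋃₀ 𝒟,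
      ∃ E, J.IsPrime (Cm n) E ∧ E ⊆ g ⁻¹' ⋃₀ 𝒟 ∧ x ∈ E := by
  classical
  refine hZer n X (g ⁻¹' ⋃₀ 𝒟) fun x => ?_
  have hex : ∀ D, ∃ d : Z → ℂ, D ∈ 𝒟 → J.IsLocalEq (Cm p) D d (g x) := by
    intro D
    by_cases hD : D ∈ 𝒟
    · obtain ⟨d, hd⟩ := (hp D hD).2.1 (g x)
      exact ⟨d, fun _ => hd⟩
    · exact ⟨fun _ => 0, fun h => absurd h hD⟩
  choose d hd using hex
  have hgc : Continuous g := hg.continuous
  have hiff : ∀ᶠ z in 𝓝 x, z ∈ g ⁻¹' ⋃₀ 𝒟 ↔ ∏ D ∈ hf.toFinset, d D (g z) = 0 := by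
    have h1 : ∀ᶠ z in 𝓝 x, ∀ D ∈ hf.toFinset, g z ∈ D ↔ d D (g z) = 0 := by
      rw [Filter.eventually_all_finset]
      intro D hD
      exact hgc.continuousAt.eventually
        (H511.Gen.isLocalEq_mem_iff (hd D (hf.mem_toFinset.1 hD)))
    filter_upwards [h1] with z h2
    rw [Finset.prod_eq_zero_iff]
    constructor
    · rintro ⟨D, hD, hz⟩
      exact ⟨D, hf.mem_toFinset.2 hD, (h2 D (hf.mem_toFinset.2 hD)).1 hz⟩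
    · rintro ⟨D, hD, hz⟩
      exact ⟨D, hf.mem_toFinset.1 hD, (h2 D hD).2 hz⟩
  refine ⟨fun z => ∏ D ∈ hf.toFinset, d D (g z), ?_, ?_, hiff⟩
  · exact HolV.prod (E := Cm n) fun D hD => HolV.comp (E' := Cm p)
      (H511.Gen.isLocalEq_holAt (hd D (hf.mem_toFinset.1 hD))) (hg x)
  · intro hcon
    refine not_ev hg hs hf hp x ?_
    filter_upwards [hcon, hiff] with z h1 h2
    exact h2.2 h1

end

end Vale.Agent.P281.H638.TM
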